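import Vale.Agent.P159.TM.H9.Main

/-!
# Input at the top scales only

`rsw_top`: easy crossings of `s × 4s` for `m / 6000 ≤ s ≤ 2m` give crossings of `4m × m` and
annuli. The crossings at the smaller scales come from the arms of the gaps, by a downward
induction on the size of the gap (helper885).
-/

namespace Vale.Agent.P159.TM.H9

open Vale.Agent.P145.FB Vale.Agent.P153 Vale.Agent.P153.Topo

/-- **(L2) with two constants.** -/
theorem L2g (P : PP) {p0 c : ℝ} (hp0 : 0 < p0) (hc0 : 0 < c) (hc1 : c ≤ 1)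
    {B s r : ℤ} (hr : 0 ≤ r) (hs : s = B / 14) (hrs : 200 * (r + 1) ≤ s) (hSQ : p0 ≤ P.L B (w B))
    (he : 6000 * P.L (l s) (w s) ≤ p0 * c ^ 4) (hA : ARM P c s r) :
    ARM P (p0 / 6000) B r := by
  obtain ⟨u, v, hu1, hu2, hv1, hv2, hup⟩ := hA
  have hws : w s = s + s / 20 + 1 := rfl
  have hwB : w B = B + B / 20 + 1 := rfl
  have hls : l s = s + s / 5 + 1 := rfl
  have herr := L1 P hc0.le (B := s) (W := w s) (ℓ := l s) (D := s / 2) (r := r) (u := u) (v := v)
    hr (by omega) (by omega) (by omega) (by omega) (by omega) (by omega) hup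
  set Y : ℤ := v + r - s + s / 2 with hY
  have hc4 : 0 < c ^ 4 := by positivity
  have hc4' : c ^ 4 ≤ 1 := pow_le_one₀ hc0.le hc1
  have heL : P.L (l s) (w s) ≤ p0 / 6000 := by
    have h1 : p0 * c ^ 4 ≤ p0 * 1 := mul_le_mul_of_nonneg_left hc4' hp0.le
    linarith
  have herr2 : P.p (Er 0 (w s) Y s (bx u v r ∪ bx u (v + 2 * (s / 2)) r)) ≤ 4 * (p0 / 6000) := by
    have h1 : P.p (Er 0 (w s) Y s (bx u v r ∪ bx u (v + 2 * (s / 2)) r)) * c ^ 4 ≤
        4 * (p0 / 6000) * c ^ 4 := by
      calc _ ≤ 4 * P.L (l s) (w s) := herr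
        _ ≤ 4 * (p0 / 6000) * c ^ 4 := by linarith
    exact le_of_mul_le_mul_right h1 hc4
  by_contra hcon
  have hno : ∀ a b : ℤ, -(2 * r) ≤ a → a ≤ 2 * w B → -(2 * r) ≤ b → 6 * b ≤ B →
      P.p (Up (w B) 0 B a b r) ≤ p0 / 6000 := by
    intro a b h1 h2 h3 h4
    by_contra hcc
    exact hcon ⟨a, b, h1, h2, h3, h4, (not_le.1 hcc).le⟩
  have hLt : ∀ b : ℤ, P.p (Lt B (w B) (bx (u + 2 * (B - w s)) b r)) ≤ p0 / 6000 := by
    intro b
    by_cases hb : -(2 * r) ≤ b ∧ b ≤ 2 * w B
    · rw [← p_Lt]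
      exact hno _ _ hb.1 hb.2 (by omega) (by omega)
    · refine le_trans (P.mono _ (LRc 0 (l s) 0 (w s)) ?_) heL
      rintro S ⟨x, y, hxy, hx, hy⟩
      exfalso
      have h1 := hxy.left_mem.2
      rw [mem_rc] at h1
      rw [mem_bx] at hx
      omega
  set m : ℤ := s / 10 with hm
  have hstep : ∀ i ≤ 159, P.p (fun S =>
      (BTc (B - w s) B (m * (i : ℕ) + m) (m * i + m + l s) S ∨
        Er (B - w s) B (m * i) (m * i + (s - Y))
          (bx (u + 2 * (B - w s)) (v + 2 * (m * i - Y)) r ∪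
            bx (u + 2 * (B - w s)) (v + 2 * (s / 2) + 2 * (m * i - Y)) r) S) ∨
      (Lt B (w B) (bx (u + 2 * (B - w s)) (v + 2 * (m * i - Y)) r) S ∨
        Lt B (w B) (bx (u + 2 * (B - w s)) (v + 2 * (s / 2) + 2 * (m * i - Y)) r) S)) ≤
      p0 / 6000 + 4 * (p0 / 6000) + (p0 / 6000 + p0 / 6000) := by
    intro i _
    refine (P.or_le _ _).trans (add_le_add ((P.or_le _ _).trans (add_le_add ?_ ?_))
      ((P.or_le _ _).trans (add_le_add (hLt _) (hLt _))))
    · rw [P.B_eq']
      have e1 : m * (i : ℤ) + m + l s - (m * i + m) = l s := by ring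
      have e2 : B - (B - w s) = w s := by ring
      rw [e1, e2]
      exact heL
    · have e := p_Er P 0 (w s) Y s u v (v + 2 * (s / 2)) r (B - w s) (m * i - Y)
      have e1 : (0 : ℤ) + (B - w s) = B - w s := by ring
      have e2 : w s + (B - w s) = B := by ring
      have e3 : Y + (m * (i : ℤ) - Y) = m * i := by ring
      have e4 : s + (m * (i : ℤ) - Y) = m * i + (s - Y) := by ring
      rw [e1, e2, e3, e4] at e
      rw [e]
      exact herr2
  have hun := union_le P hstep
  have hdet : P.L B (w B) ≤ _ := P.mono (LRc 0 B 0 (w B)) _ (fun S hS =>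
    L2det (S := S) (B := B) (W := w B) (X := B - w s) (m := m) (H := s - Y) (ℓ := l s)
      (by omega) (by omega) (by omega) (by omega) 159 (by push_cast; omega)
      (fun i => bx (u + 2 * (B - w s)) (v + 2 * (m * i - Y)) r)
      (fun i => bx (u + 2 * (B - w s)) (v + 2 * (s / 2) + 2 * (m * i - Y)) r) hS)
  have hfin := hSQ.trans (hdet.trans hun)
  push_cast at hfin
  linarith

/-- The chain with one constant; squares are used at the scales `≥ 200 (r + 1)` only. -/
theorem arm_all' (P : PP) {p0 : ℝ} (hp0 : 0 < p0) (hp1 : p0 ≤ 1) {n r : ℤ} (hr : 0 ≤ r)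
    (hSQ : ∀ t, 200 * (r + 1) ≤ t → t ≤ n → p0 ≤ P.L t (w t))
    (hbad : ∀ t, 200 * (r + 1) ≤ t → t < n → 6000 * P.L (l t) (w t) ≤ p0 * (p0 / 6000) ^ 4)
    (k : ℕ) : ∀ B : ℤ, B ≤ k → 200 * (r + 1) ≤ B → B ≤ n → ARM P (p0 / 6000) B r := by
  induction k using Nat.strong_induction_on with
  | _ k ih =>
    intro B hBk hB hBn
    by_cases hcase : 200 * (r + 1) ≤ B / 14
    · refine L2g P hp0 (by positivity) (by linarith) hr rfl hcase (hSQ B hB (by omega))
        (hbad _ (by omega) (by omega)) ?_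
      exact ih (B / 14).toNat (by omega) (B / 14) (by omega) (by omega) (by omega)
    · exact L3 P hp0 (by omega) hr (by omega) (hSQ B hB (by omega))

/-- The constant is healed at the top. -/
theorem arm_top (P : PP) {p0 p' : ℝ} (hp0 : 0 < p0) (hp' : 0 < p') (hp1 : p' ≤ 1) {n r : ℤ}
    (hr : 0 ≤ r) (hn : 200 * (r + 1) ≤ n / 14) (htop : p0 ≤ P.L n (w n))
    (hSQ : ∀ t, 200 * (r + 1) ≤ t → t < n → p' ≤ P.L t (w t))
    (hbad : ∀ t, 200 * (r + 1) ≤ t → t < n → 6000 * P.L (l t) (w t) ≤ p' * (p' / 6000) ^ 4)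
    (hpp : p' ≤ p0) : ARM P (p0 / 6000) n r := by
  refine L2g P hp0 (c := p' / 6000) (by positivity) (by linarith) hr rfl hn htop ?_ ?_
  · refine (hbad _ (by omega) (by omega)).trans (mul_le_mul_of_nonneg_right hpp (by positivity))
  · exact arm_all' P hp' hp1 hr (n := n - 1) (fun t h1 h2 => hSQ t h1 (by omega))
      (fun t h1 h2 => hbad t h1 (by omega)) (n / 14).toNat (n / 14) (by omega) hn (by omega)

/-- Arms of a gap of side `s` give easy crossings at scale `s`. -/
theorem easy_of_arm (P : PP) {c : ℝ} {B s : ℤ} (hs : 1 ≤ s) (hB : 100 * (s + 1) ≤ B)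
    (h : ARM P c B s) : c / 4 ≤ P.L s (4 * s) := by
  obtain ⟨u, v, hu1, hu2, hv1, hv2, hup⟩ := h
  set p : ℤ := (u + s) / 2 with hp
  set q : ℤ := (v + s) / 2 with hq
  have hdet : P.p (Up (w B) 0 B u v s) ≤ P.p (fun S =>
      (LRc (p + s) (p + 2 * s) (q - 2 * s) (q + 2 * s) S ∨
        LRc (p - 2 * s) (p - s) (q - 2 * s) (q + 2 * s) S) ∨
      (BTc (p - 2 * s) (p + 2 * s) (q + s) (q + 2 * s) S ∨
        BTc (p - 2 * s) (p + 2 * s) (q - 2 * s) (q - s) S)) := by
    refine P.mono _ _ ?_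
    rintro S ⟨x, y, hxy, hx, hy⟩
    rw [mem_bx] at hx
    set f : ℤ × ℤ → ℤ := fun z =>
      max (max (z.1 - 2 * p) (2 * p - z.1)) (max (z.2 - 2 * q) (2 * q - z.2)) with hf
    have hfl : ∀ a b, NN a b → f b ≤ f a + 1 := by
      intro a b hab
      unfold NN at hab
      simp only [hf]
      omega
    obtain ⟨z, hz, hxz⟩ := hxy.first hfl (d := 4 * s) (by simp only [hf]; omega)
      (by simp only [hf]; omega)
    have hbd : ∀ a ∈ S ∩ rc 0 (w B) 0 B ∩ {a | f a ≤ 4 * s}, a ∈ S ∧ 2 * (p - 2 * s) ≤ a.1 ∧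
        a.1 ≤ 2 * (p + 2 * s) ∧ 2 * (q - 2 * s) ≤ a.2 ∧ a.2 ≤ 2 * (q + 2 * s) := by
      rintro a ⟨⟨ha, _⟩, ha2⟩
      simp only [Set.mem_ofPred_eq, hf] at ha2
      exact ⟨ha, by omega, by omega, by omega, by omega⟩
    simp only [hf] at hz
    have hcases : z.1 = 2 * (p + 2 * s) ∨ z.1 = 2 * (p - 2 * s) ∨ z.2 = 2 * (q + 2 * s) ∨
        z.2 = 2 * (q - 2 * s) := by omega
    rcases hcases with h1 | h1 | h1 | h1
    · left; left
      obtain ⟨a, b, ha, hb, hab, _, _⟩ := hxz.exit (f := Prod.fst) nn_fst (c := 2 * (p + s))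
        (d := 2 * (p + 2 * s)) (by omega) (by omega) (by omega)
      refine ⟨a, b, hab.mono ?_, ha, hb⟩
      rintro g ⟨hg, hg1, hg2⟩
      have := hbd g hg
      exact ⟨this.1, by rw [mem_rc]; omega⟩
    · left; right
      obtain ⟨a, b, ha, hb, hab, _, _⟩ := hxz.exit (f := fun g => -g.1)
        (fun a b hab => by have := nn_fst b a hab.symm; omega) (c := -(2 * (p - s)))
        (d := -(2 * (p - 2 * s))) (by omega) (by omega) (by omega)
      refine ⟨b, a, (hab.mono ?_).symm, by omega, by omega⟩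
      rintro g ⟨hg, hg1, hg2⟩
      have := hbd g hg
      exact ⟨this.1, by rw [mem_rc]; omega⟩
    · right; left
      obtain ⟨a, b, ha, hb, hab, _, _⟩ := hxz.exit (f := Prod.snd) nn_snd (c := 2 * (q + s))
        (d := 2 * (q + 2 * s)) (by omega) (by omega) (by omega)
      refine ⟨a, b, hab.mono ?_, ha, hb⟩
      rintro g ⟨hg, hg1, hg2⟩
      have := hbd g hg
      exact ⟨this.1, by rw [mem_rc]; omega⟩
    · right; right
      obtain ⟨a, b, ha, hb, hab, _, _⟩ := hxz.exit (f := fun g => -g.2)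
        (fun a b hab => by have := nn_snd b a hab.symm; omega) (c := -(2 * (q - s)))
        (d := -(2 * (q - 2 * s))) (by omega) (by omega) (by omega)
      refine ⟨b, a, (hab.mono ?_).symm, by omega, by omega⟩
      rintro g ⟨hg, hg1, hg2⟩
      have := hbd g hg
      exact ⟨this.1, by rw [mem_rc]; omega⟩
  have t0 := P.or_le (fun S => LRc (p + s) (p + 2 * s) (q - 2 * s) (q + 2 * s) S ∨
        LRc (p - 2 * s) (p - s) (q - 2 * s) (q + 2 * s) S)
      (fun S => BTc (p - 2 * s) (p + 2 * s) (q + s) (q + 2 * s) S ∨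
        BTc (p - 2 * s) (p + 2 * s) (q - 2 * s) (q - s) S)
  have t1 := P.or_le (LRc (p + s) (p + 2 * s) (q - 2 * s) (q + 2 * s))
    (LRc (p - 2 * s) (p - s) (q - 2 * s) (q + 2 * s))
  have t2 := P.or_le (BTc (p - 2 * s) (p + 2 * s) (q + s) (q + 2 * s))
    (BTc (p - 2 * s) (p + 2 * s) (q - 2 * s) (q - s))
  have e1 : P.p (LRc (p + s) (p + 2 * s) (q - 2 * s) (q + 2 * s)) = P.L s (4 * s) := by
    rw [P.L_eq']; congr 1 <;> ring
  have e2 : P.p (LRc (p - 2 * s) (p - s) (q - 2 * s) (q + 2 * s)) = P.L s (4 * s) := by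
    rw [P.L_eq']; congr 1 <;> ring
  have e3 : P.p (BTc (p - 2 * s) (p + 2 * s) (q + s) (q + 2 * s)) = P.L s (4 * s) := by
    rw [P.B_eq']; congr 1 <;> ring
  have e4 : P.p (BTc (p - 2 * s) (p + 2 * s) (q - 2 * s) (q - s)) = P.L s (4 * s) := by
    rw [P.B_eq']; congr 1 <;> ring
  rw [e1, e2] at t1
  rw [e3, e4] at t2
  linarith

/-- **RSW with input at the top scales only.** Easy crossings of `s × 4s` with probability `≥ p₁`
for `m / 6000 ≤ s ≤ 2m` give crossings of `4m × m` in the long direction and annuli. -/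
theorem rsw_top {p1 : ℝ} (hp1 : 0 < p1) : ∃ c > 0, ∀ (P : PP) (m : ℤ), 10000 ≤ m →
    (∀ s, m ≤ 6000 * s → s ≤ 2 * m → p1 ≤ P.L s (4 * s)) →
      c ≤ P.L (4 * m) m ∧ ∀ p q, c ≤ P.p (Ann p q m) := by
  classical
  set p0 : ℝ := min (p1 / 160) 1 with hp0
  have hp0pos : 0 < p0 := lt_min (by positivity) one_pos
  have hp0le : p0 ≤ 1 := min_le_right _ _
  set p' : ℝ := p0 / 6000 / 640 with hp'
  have hp'pos : 0 < p' := by positivity
  have hpp : p' ≤ p0 := by rw [hp']; linarith
  set e1 : ℝ := p' * (p' / 6000) ^ 4 / 6000 with he1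
  have he1pos : 0 < e1 := by positivity
  set b : ℝ := e1 * (p' * e1) ^ 160000 with hb
  set a : ℝ := e1 * (p' * e1) ^ 320 with ha
  have hbpos : 0 < b := by positivity
  have hapos : 0 < a := by positivity
  set c1 : ℝ := min (p' / 6000 * (p' / 6000)) (min b (p' / 6000 * (p' / 6000) * a ^ 4)) with hc1
  have hc1pos : 0 < c1 := by positivity
  set c2 : ℝ := c1 * (p' * c1) ^ 320 with hc2
  have hc2pos : 0 < c2 := by positivity
  refine ⟨min c2 (c2 ^ 4), by positivity, ?_⟩
  intro P m hm hE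
  -- squares in the window
  have hSQ0 : ∀ t, m ≤ 6000 * t → t ≤ 2 * m → p0 ≤ P.L t (w t) := fun t h1 h2 =>
    (min_le_left _ _).trans (step0 P (by omega) (hE t h1 h2))
  set B : ℤ := m - m / 10 with hB
  have hlB : l B = B + B / 5 + 1 := rfl
  have hwB : w B = B + B / 20 + 1 := rfl
  -- squares at all scales above the last good scale
  have hdown : ∀ R : ℤ, 200 ≤ R →
      (∀ t, R < t → t < B → P.L (l t) (w t) ≤ e1) →
      ∀ k : ℕ, ∀ s, 2 * m - s ≤ k → R ≤ s → s ≤ 2 * m → p' ≤ P.L s (w s) := by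
    intro R hR hbad k
    induction k using Nat.strong_induction_on with
    | _ k ih =>
      intro s hsk hRs hsm
      by_cases hwin : m ≤ 6000 * s
      · exact hpp.trans (hSQ0 s hwin hsm)
      · have harm : ARM P (p0 / 6000) B s := by
          refine arm_top P hp0pos hp'pos (hpp.trans hp0le) (n := B) (r := s) (by omega) (by omega)
            (hSQ0 B (by omega) (by omega)) ?_ ?_ hpp
          · intro t h1 h2
            exact ih (2 * m - t).toNat (by omega) t (by omega) (by omega) (by omega)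
          · intro t h1 h2
            have := hbad t (by omega) h2
            have h3 : 6000 * e1 = p' * (p' / 6000) ^ 4 := by rw [he1]; ring
            linarith
        have h4 := easy_of_arm P (by omega) (by omega) harm
        have h5 := step0 P (by omega) h4
        have h6 : p0 / 6000 / 4 / 160 = p' := by rw [hp']; ring
        rw [h6] at h5
        exact h5
  have hmain : c1 ≤ P.L (l B) (w B) := by
    by_cases hgood : ∃ t : ℕ, 200 ≤ t ∧ (t : ℤ) < B ∧ e1 < P.L (l t) (w t)
    · obtain ⟨t0, ht0, ht1, ht2⟩ := hgood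
      set r : ℕ := Nat.findGreatest (fun t : ℕ => 200 ≤ t ∧ (t : ℤ) < B ∧ e1 < P.L (l t) (w t))
        B.toNat with hr
      have hspec : 200 ≤ r ∧ (r : ℤ) < B ∧ e1 < P.L (l r) (w r) :=
        Nat.findGreatest_spec (P := fun t : ℕ => 200 ≤ t ∧ (t : ℤ) < B ∧ e1 < P.L (l t) (w t))
          (m := t0) (by omega) ⟨ht0, ht1, ht2⟩
      obtain ⟨hr1, hr2, hr3⟩ := hspec
      have hr1' : (200 : ℤ) ≤ r := by exact_mod_cast hr1
      have hbad : ∀ t : ℤ, (r : ℤ) < t → t < B → P.L (l t) (w t) ≤ e1 := by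
        intro t h2 h3
        by_contra hcc
        have h4 : ¬ (200 ≤ t.toNat ∧ ((t.toNat : ℕ) : ℤ) < B ∧
            e1 < P.L (l (t.toNat : ℕ)) (w (t.toNat : ℕ))) :=
          Nat.findGreatest_is_greatest (P := fun t : ℕ => 200 ≤ t ∧ (t : ℤ) < B ∧
            e1 < P.L (l t) (w t)) (n := B.toNat) (by omega) (by omega)
        apply h4
        have e : ((t.toNat : ℕ) : ℤ) = t := Int.toNat_of_nonneg (by omega)
        rw [e]
        exact ⟨by omega, h3, not_le.1 hcc⟩
      have hSQ : ∀ t, (r : ℤ) ≤ t → t ≤ 2 * m → p' ≤ P.L t (w t) := fun t h1 h2 =>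
        hdown r hr1' hbad (2 * m - t).toNat t (by omega) h1 h2
      have hwr : w (r : ℤ) = r + r / 20 + 1 := rfl
      have hsq : p' ≤ P.L (w r) (w (w r)) := hSQ _ (by omega) (by omega)
      by_cases hnear : B < 4000 * ((r : ℤ) + 1)
      · refine (min_le_right _ _).trans ((min_le_left _ _).trans ?_)
        have h1 := glue P hp'pos.le he1pos.le hr1' hsq hr3.le 160000 (T := 2 * B) (by omega)
          (by push_cast; omega)
        refine h1.trans (P.L_mono geo (by omega) (by omega) (by omega))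
      · refine (min_le_right _ _).trans ((min_le_right _ _).trans ?_)
        refine concB P (by positivity) hapos.le (r := r) (by omega) (by omega) ?_ ?_
        · refine arm_all' P hp'pos (hpp.trans hp0le) (n := B - 1) (r := r) (by omega)
            (fun t h1 h2 => hSQ t (by omega) (by omega)) ?_
            (B - 16 * ((r : ℤ) + 1)).toNat _ (by omega) (by omega) (by omega)
          intro t h1 h2
          have := hbad t (by omega) (by omega)
          have h3 : 6000 * e1 = p' * (p' / 6000) ^ 4 := by rw [he1]; ring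
          linarith
        · have h1 := glue P hp'pos.le he1pos.le hr1' hsq hr3.le 320
            (T := 4 * (2 * ((r : ℤ) + 1))) (by omega) (by push_cast; omega)
          exact h1.trans (P.L_mono geo (by omega) le_rfl (by omega))
    · have hbad : ∀ t : ℤ, 200 ≤ t → t < B → P.L (l t) (w t) ≤ e1 := by
        intro t h1 h3
        by_contra hcc
        refine hgood ⟨t.toNat, by omega, by omega, ?_⟩
        have e : ((t.toNat : ℕ) : ℤ) = t := Int.toNat_of_nonneg (by omega)
        rw [e]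
        exact not_le.1 hcc
      have hSQ : ∀ t, (200 : ℤ) ≤ t → t ≤ 2 * m → p' ≤ P.L t (w t) := fun t h1 h2 =>
        hdown 200 le_rfl (fun t h1 h2 => hbad t (by omega) h2) (2 * m - t).toNat t (by omega) h1 h2
      refine (min_le_left _ _).trans (concA P (by positivity) (by omega) ?_)
      refine arm_all' P hp'pos (hpp.trans hp0le) (n := B) (r := 0) le_rfl
        (fun t h1 h2 => hSQ t (by omega) (by omega)) ?_ B.toNat B (by omega) (by omega) le_rfl
      intro t h1 h2
      have := hbad t (by omega) (by omega)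
      have h3 : 6000 * e1 = p' * (p' / 6000) ^ 4 := by rw [he1]; ring
      linarith
  have key : c2 ≤ P.L (4 * m) m := by
    have h2 := glue P hp'pos.le hc1pos.le (r := B) (by omega)
      (hpp.trans (hSQ0 _ (by omega) (by omega))) hmain 320 (T := 4 * m) (by omega)
      (by push_cast; omega)
    exact h2.trans (P.L_mono geo (by omega) le_rfl (by omega))
  exact ⟨(min_le_left _ _).trans key,
    fun p q => (min_le_right _ _).trans (P.Ann_ge p q hc2pos.le key)⟩

end Vale.Agent.P159.TM.H9
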