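import Vale.Agent.P159.TM.H9.Rsw

/-!
# The chain of scales, and the theorem

`rsw_easy`: crossings of `s × 4s` in the easy direction with probability `≥ p₁` at all scales
`1 ≤ s ≤ n` give crossings of `4m × m` in the long direction, and annuli, for `400 ≤ m ≤ n / 2`.
-/

namespace Vale.Agent.P159.TM.H9

open Vale.Agent.P145.FB Vale.Agent.P153 Vale.Agent.P153.Topo

/-- **Step 0.** Easy crossings of `t × 4t` give crossings of `t × w t`. -/
theorem step0 (P : PP) {p1 : ℝ} {t : ℤ} (ht : 1 ≤ t) (h : p1 ≤ P.L t (4 * t)) :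
    p1 / 160 ≤ P.L t (w t) := by
  have hwt : w t = t + t / 20 + 1 := rfl
  set m : ℤ := t / 20 + 1 with hm
  have e0 : P.L t (4 * t) = P.p (LRc 0 t 0 (4 * t)) := rfl
  have hstep : ∀ i ≤ 79, P.p (fun S => LRc 0 t (m * (i : ℕ)) (m * i + w t) S ∨
      BTc 0 t (m * i + m) (m * i + w t) S) ≤ P.L t (w t) + P.L t (w t) := by
    intro i _
    refine (P.or_le _ _).trans (add_le_add ?_ ?_)
    · rw [P.L_eq']
      have e1 : t - 0 = t := by ring
      have e2 : m * (i : ℤ) + w t - m * i = w t := by ring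
      rw [e1, e2]
    · rw [P.B_eq']
      have e1 : t - 0 = t := by ring
      have e2 : m * (i : ℤ) + w t - (m * i + m) = t := by rw [hwt, hm]; ring
      rw [e1, e2]
      exact P.L_mono geo (by omega) le_rfl (by omega)
  have hun := union_le P hstep
  have hdet : P.L t (4 * t) ≤ P.p (fun S => ∃ i ≤ 79, LRc 0 t (m * (i : ℕ)) (m * i + w t) S ∨
      BTc 0 t (m * i + m) (m * i + w t) S) := by
    refine P.mono _ _ ?_
    rintro S ⟨x, y, hxy, hx, hy⟩
    obtain ⟨i, hi, hcase⟩ := windows hxy (T := 4 * t) (m := m) (w t) (by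
      rintro q ⟨_, hq⟩
      rw [mem_rc] at hq
      omega) 79 (by push_cast; omega)
    refine ⟨i, hi, ?_⟩
    rcases hcase with hcase | ⟨q1, q2, hq, hq1, hq2⟩
    · left
      refine ⟨x, y, hcase.mono ?_, hx, hy⟩
      rintro q ⟨⟨hq1, hq2⟩, hq3⟩
      rw [mem_rc] at hq2
      simp only [Set.mem_ofPred_eq] at hq3
      refine ⟨hq1, ?_⟩
      rw [mem_rc]
      omega
    · right
      refine bt_of hq Set.inter_subset_left ?_ (by omega) hq1 hq2
      rintro q ⟨_, hq⟩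
      rw [mem_rc] at hq
      omega
  have := h.trans (hdet.trans hun)
  push_cast at this
  linarith

/-- **The chain of scales.** -/
theorem arm_all (P : PP) {p0 : ℝ} (hp0 : 0 < p0) (hp1 : p0 ≤ 1) {n B0 r : ℤ} (hr : 0 ≤ r)
    (hSQ : ∀ t, 1 ≤ t → t ≤ n → p0 ≤ P.L t (w t)) (hB0 : B0 ≤ n)
    (hbad : ∀ t, 200 ≤ t → r < t → t < B0 → P.L (l t) (w t) ≤ (p0 / 6000) ^ 6) (k : ℕ) :
    ∀ B : ℤ, 1 ≤ B → B ≤ k → B ≤ B0 → ARM P (p0 / 6000) B r := by
  induction k using Nat.strong_induction_on with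
  | _ k ih =>
    intro B hB hBk hBB
    by_cases hcase : 200 * (r + 1) ≤ B / 14
    · refine L2 P hp0 hp1 hr rfl hcase (hSQ B hB (by omega)) (hbad _ (by omega) (by omega)
        (by omega)) ?_
      exact ih (B / 14).toNat (by omega) (B / 14) (by omega) (by omega) (by omega)
    · exact L3 P hp0 hB hr (by omega) (hSQ B hB (by omega))

/-- Gluing with the room `w`. -/
theorem L_chain' (P : PP) {c0 : ℝ} (h0 : 0 ≤ c0) {W W' h o : ℤ} (hh : 0 ≤ h) (ho : 0 ≤ o)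
    (hsq : c0 ≤ P.L h o) (hW : o ≤ W) (hW' : o ≤ W') {a b : ℝ} (ha : 0 ≤ a) (hb : 0 ≤ b)
    (hwa : a ≤ P.L W h) (hwb : b ≤ P.L W' h) : a * c0 * b ≤ P.L (W + W' - o) h := by
  refine P.fkg3 (IL_LRc 0 W 0 h) (IL_BTc (W - o) W 0 h) (IL_LRc (W - o) (W + W' - o) 0 h)
    (fun S h1 h2 h3 => geo.chain 0 (W - o) W (W + W' - o) 0 h S (by omega) (by omega) (by omega)
      hh h1 h2 h3) ha h0 hb ?_ ?_ ?_
  · rw [P.L_eq']; simpa using hwa
  · rw [P.B_eq']
    have e : W - (W - o) = o := by ring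
    rw [e]; simpa using hsq
  · rw [P.L_eq']
    have e : W + W' - o - (W - o) = W' := by ring
    rw [e]; simpa using hwb

theorem L_iter' (P : PP) {c0 : ℝ} (h0 : 0 ≤ c0) {h o k : ℤ} (hh : 0 ≤ h) (ho : 0 ≤ o) (hk : 0 ≤ k)
    (hsq : c0 ≤ P.L h o) {a : ℝ} (ha : 0 ≤ a) (hka : a ≤ P.L (o + k) h) (j : ℕ) :
    a * (c0 * a) ^ j ≤ P.L (o + (j + 1 : ℕ) * k) h := by
  induction j with
  | zero => simpa using hka
  | succ j ih =>
    have h1 : 0 ≤ a * (c0 * a) ^ j := mul_nonneg ha (pow_nonneg (mul_nonneg h0 ha) _)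
    have h2 : 0 ≤ ((j + 1 : ℕ) : ℤ) * k := mul_nonneg (Int.natCast_nonneg _) hk
    have := L_chain' P h0 hh ho hsq (W := o + (j + 1 : ℕ) * k) (W' := o + k) (by linarith)
      (by linarith) h1 ha ih hka
    have e : o + ((j + 1 : ℕ) : ℤ) * k + (o + k) - o = o + ((j + 1 + 1 : ℕ) : ℤ) * k := by
      push_cast; ring
    rw [e] at this
    calc a * (c0 * a) ^ (j + 1) = a * (c0 * a) ^ j * c0 * a := by ring
      _ ≤ _ := this

/-- Long crossings at a good scale. -/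
theorem glue (P : PP) {p0 a : ℝ} (hp0 : 0 ≤ p0) (ha : 0 ≤ a) {r : ℤ} (hr : 200 ≤ r)
    (hsq : p0 ≤ P.L (w r) (w (w r))) (hg : a ≤ P.L (l r) (w r)) (j : ℕ) {T : ℤ} (hT0 : 0 ≤ T)
    (hT : 20 * T ≤ (j + 1) * (r + 1)) : a * (p0 * a) ^ j ≤ P.L T (w r) := by
  have h1 : w r = r + r / 20 + 1 := rfl
  have h2 : w (w r) = w r + w r / 20 + 1 := rfl
  have h3 : l r = r + r / 5 + 1 := rfl
  set k : ℤ := l r - w (w r) with hk
  have hk20 : r + 1 ≤ 20 * k := by omega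
  have e : w (w r) + k = l r := by rw [hk]; ring
  have := L_iter' P hp0 (h := w r) (o := w (w r)) (k := k) (by omega) (by omega) (by omega) hsq ha
    (by rw [e]; exact hg) j
  refine this.trans (P.L_mono geo hT0 ?_ le_rfl)
  have h5 : ((j : ℤ) + 1) * (r + 1) ≤ (j + 1) * (20 * k) :=
    mul_le_mul_of_nonneg_left hk20 (by positivity)
  have h6 : ((j : ℤ) + 1) * (20 * k) = 20 * (((j + 1 : ℕ) : ℤ) * k) := by push_cast; ring
  rw [h6] at h5
  have h7 : 0 ≤ w (w r) := by omega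
  omega

/-- **Conclusion (a)**: arms of one point. -/
theorem concA (P : PP) {c : ℝ} (hc : 0 ≤ c) {B : ℤ} (hB : 20 ≤ B) (h : ARM P c B 0) :
    c * c ≤ P.L (l B) (w B) := by
  obtain ⟨u, v, hu1, hu2, hv1, hv2, hup⟩ := h
  have hlB : l B = B + B / 5 + 1 := rfl
  have hdn : c ≤ P.p (Dn (w B) (v + 0 - B) (v + 0 - 0) u v 0) := by rw [p_Dn]; exact hup
  have e1 : P.L (l B) (w B) = P.p (BTc 0 (w B) (v - B) (v - B + l B)) := by
    rw [P.B_eq']; congr 1 <;> ring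
  rw [e1]
  refine P.fkg2 (IL_CE (Bd.rc _ _ _ _) _) (IL_CE (Bd.rc _ _ _ _) _) ?_ hc hc hup hdn
  rintro S ⟨x, y, hxy, hx, hy⟩ ⟨x', y', hxy', hx', hy'⟩
  rw [mem_bx] at hx hx'
  have hxx : x = x' := Prod.ext (by omega) (by omega)
  subst hxx
  set M : Set (ℤ × ℤ) := S ∩ {q | 0 ≤ q.1 ∧ q.1 ≤ 2 * w B} with hM
  have sub : ∀ a b : ℤ, S ∩ rc 0 (w B) a b ⊆ M := by
    rintro a b q ⟨hq1, hq2⟩
    rw [mem_rc] at hq2
    exact ⟨hq1, by omega, by omega⟩
  refine bt_of ((hxy'.mono (sub _ _)).symm.trans (hxy.mono (sub _ _))) Set.inter_subset_left ?_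
    (by omega) (by omega) (by omega)
  rintro q ⟨_, hq1, hq2⟩
  exact ⟨by omega, hq2⟩

/-- **Conclusion (b)**: arms of a gap joined by a circuit. -/
theorem concB (P : PP) {c a : ℝ} (hc : 0 ≤ c) (ha : 0 ≤ a) {B r : ℤ} (hr : 1 ≤ r)
    (hB : 4000 * (r + 1) ≤ B) (h : ARM P c (B - 16 * (r + 1)) r)
    (hL : a ≤ P.L (4 * (2 * (r + 1))) (2 * (r + 1))) :
    c * c * a ^ 4 ≤ P.L (l B) (w B) := by
  obtain ⟨u, v, hu1, hu2, hv1, hv2, hup⟩ := h
  set B' : ℤ := B - 16 * (r + 1) with hB'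
  have hlB : l B = B + B / 5 + 1 := rfl
  have hwB : w B = B + B / 20 + 1 := rfl
  have hwB' : w B' = B' + B' / 20 + 1 := rfl
  have hdn : c ≤ P.p (Dn (w B') (v + r - B') (v + r - 0) u v r) := by rw [p_Dn]; exact hup
  set t : ℤ := 2 * (r + 1) with ht
  set p : ℤ := (u + r) / 2 with hp
  set q : ℤ := (v + r) / 2 with hq
  have hann := P.Ann_ge p q ha hL
  have e1 : P.L (l B) (w B) = P.p (BTc (-(8 * (r + 1))) (-(8 * (r + 1)) + w B) (v + r - B')
      (v + r - B' + l B)) := by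
    rw [P.B_eq']; congr 1 <;> ring
  rw [e1]
  refine P.fkg3 (IL_CE (Bd.rc _ _ _ _) _) (IL_CE (Bd.rc _ _ _ _) _) (IL_Ann p q t) ?_ hc hc
    (by positivity) hup hdn hann
  rintro S ⟨x, y, hxy, hx, hy⟩ ⟨x', y', hxy', hx', hy'⟩ hA
  rw [mem_bx] at hx hx'
  obtain ⟨o, _, hsep⟩ := hA.cluster (by omega)
  obtain ⟨g, hg1, hg2⟩ := hsep _ x y (hxy.cluster.conn) (by rw [mem_rc]; omega)
    (by right; right; right; omega)
  obtain ⟨g', hg1', hg2'⟩ := hsep _ x' y' (hxy'.cluster.conn) (by rw [mem_rc]; omega)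
    (by right; right; left; omega)
  set M : Set (ℤ × ℤ) := S ∩ {z | 2 * (-(8 * (r + 1))) ≤ z.1 ∧
    z.1 ≤ 2 * (-(8 * (r + 1)) + w B)} with hM
  have sub : ∀ a b : ℤ, S ∩ rc 0 (w B') a b ⊆ M := by
    rintro a b z ⟨hz1, hz2⟩
    rw [mem_rc] at hz2
    refine ⟨hz1, ?_⟩
    simp only [Set.mem_ofPred_eq]
    omega
  have subA : S ∩ annR p q t ⊆ M := by
    rintro z ⟨hz1, hz2⟩
    have hz3 := annR_sub p q t hz2
    rw [mem_rc] at hz3
    refine ⟨hz1, ?_⟩
    simp only [Set.mem_ofPred_eq]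
    omega
  have c1 : NC M y g := (hxy.mono (sub _ _)).symm.trans (hg1.mono (sub _ _))
  have c2 : NC M y' g' := (hxy'.mono (sub _ _)).symm.trans (hg1'.mono (sub _ _))
  have c3 : NC M g' g := (hg2'.mono subA).symm.trans (hg2.mono subA)
  exact bt_of ((c2.trans c3).trans c1.symm) Set.inter_subset_left (fun z hz => hz.2) (by omega)
    (by omega) (by omega)

/-- **RSW with the room `w`.** -/
theorem rsw_w {p0 : ℝ} (hp0 : 0 < p0) (hp1 : p0 ≤ 1) : ∃ c > 0, ∀ (P : PP) (n : ℤ),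
    (∀ t, 1 ≤ t → t ≤ n → p0 ≤ P.L t (w t)) → ∀ B, 200 ≤ B → 2 * B ≤ n →
      c ≤ P.L (l B) (w B) := by
  classical
  set c' : ℝ := p0 / 6000 with hc'
  set e0 : ℝ := c' ^ 6 with he0
  have hc0 : 0 < c' := by positivity
  have hepos : 0 < e0 := by positivity
  have hx : 0 < p0 * e0 := by positivity
  set b : ℝ := e0 * (p0 * e0) ^ 160000 with hb
  set a : ℝ := e0 * (p0 * e0) ^ 320 with ha
  have hbpos : 0 < b := by positivity
  have hapos : 0 < a := by positivity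
  refine ⟨min (c' * c') (min b (c' * c' * a ^ 4)), by positivity, ?_⟩
  intro P n hSQ B hB hBn
  have hlB : l B = B + B / 5 + 1 := rfl
  have hwB : w B = B + B / 20 + 1 := rfl
  by_cases hgood : ∃ t : ℕ, 200 ≤ t ∧ (t : ℤ) < B ∧ e0 < P.L (l t) (w t)
  · obtain ⟨t0, ht0, ht1, ht2⟩ := hgood
    set r : ℕ := Nat.findGreatest (fun t : ℕ => 200 ≤ t ∧ (t : ℤ) < B ∧ e0 < P.L (l t) (w t))
      B.toNat with hr
    have hspec : 200 ≤ r ∧ (r : ℤ) < B ∧ e0 < P.L (l r) (w r) :=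
      Nat.findGreatest_spec (P := fun t : ℕ => 200 ≤ t ∧ (t : ℤ) < B ∧ e0 < P.L (l t) (w t))
        (m := t0) (by omega) ⟨ht0, ht1, ht2⟩
    obtain ⟨hr1, hr2, hr3⟩ := hspec
    have hr1' : (200 : ℤ) ≤ r := by exact_mod_cast hr1
    have hbad : ∀ t : ℤ, 200 ≤ t → (r : ℤ) < t → t < B → P.L (l t) (w t) ≤ e0 := by
      intro t h1 h2 h3
      by_contra hcc
      have h4 : ¬ (200 ≤ t.toNat ∧ ((t.toNat : ℕ) : ℤ) < B ∧
          e0 < P.L (l (t.toNat : ℕ)) (w (t.toNat : ℕ))) :=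
        Nat.findGreatest_is_greatest (P := fun t : ℕ => 200 ≤ t ∧ (t : ℤ) < B ∧
          e0 < P.L (l t) (w t)) (n := B.toNat) (by omega) (by omega)
      apply h4
      have e : ((t.toNat : ℕ) : ℤ) = t := Int.toNat_of_nonneg (by omega)
      rw [e]
      exact ⟨by omega, h3, not_le.1 hcc⟩
    have hwr : w (r : ℤ) = r + r / 20 + 1 := rfl
    have hsq : p0 ≤ P.L (w r) (w (w r)) := hSQ _ (by omega) (by omega)
    by_cases hnear : B < 4000 * ((r : ℤ) + 1)
    · refine (min_le_right _ _).trans ((min_le_left _ _).trans ?_)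
      have h1 := glue P hp0.le hepos.le hr1' hsq hr3.le 160000 (T := 2 * B) (by omega)
        (by push_cast; omega)
      refine h1.trans (P.L_mono geo (by omega) (by omega) (by omega))
    · refine (min_le_right _ _).trans ((min_le_right _ _).trans ?_)
      refine concB P hc0.le hapos.le (r := r) (by omega) (by omega) ?_ ?_
      · exact arm_all P hp0 hp1 (n := n) (B0 := B) (r := r) (by omega) hSQ (by omega) hbad
          (B - 16 * ((r : ℤ) + 1)).toNat _ (by omega) (by omega) (by omega)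
      · have h1 := glue P hp0.le hepos.le hr1' hsq hr3.le 320 (T := 4 * (2 * ((r : ℤ) + 1)))
          (by omega) (by push_cast; omega)
        exact h1.trans (P.L_mono geo (by omega) le_rfl (by omega))
  · refine (min_le_left _ _).trans (concA P hc0.le (by omega) ?_)
    refine arm_all P hp0 hp1 (n := n) (B0 := B) (r := 0) le_rfl hSQ (by omega) ?_ B.toNat B
      (by omega) (by omega) le_rfl
    intro t h1 _ h3
    by_contra hcc
    refine hgood ⟨t.toNat, by omega, by omega, ?_⟩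
    have e : ((t.toNat : ℕ) : ℤ) = t := Int.toNat_of_nonneg (by omega)
    rw [e]
    exact not_le.1 hcc

/-- **RSW from easy crossings.** -/
theorem rsw_easy {p1 : ℝ} (hp1 : 0 < p1) : ∃ c > 0, ∀ (P : PP) (n : ℤ),
    (∀ s, 1 ≤ s → s ≤ n → p1 ≤ P.L s (4 * s)) → ∀ m, 400 ≤ m → 2 * m ≤ n →
      c ≤ P.L (4 * m) m ∧ ∀ p q, c ≤ P.p (Ann p q m) := by
  set p0 : ℝ := min (p1 / 160) 1 with hp0
  have hp0pos : 0 < p0 := lt_min (by positivity) one_pos
  have hp0le : p0 ≤ 1 := min_le_right _ _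
  obtain ⟨c, hc, H⟩ := rsw_w hp0pos hp0le
  set a : ℝ := c * (p0 * c) ^ 320 with ha
  have hapos : 0 < a := by positivity
  refine ⟨min a (a ^ 4), by positivity, ?_⟩
  intro P n hE m hm hmn
  have hSQ : ∀ t, 1 ≤ t → t ≤ n → p0 ≤ P.L t (w t) := fun t h1 h2 =>
    (min_le_left _ _).trans (step0 P h1 (hE t h1 h2))
  have key : a ≤ P.L (4 * m) m := by
    set B : ℤ := m - m / 10 with hB
    have hwB : w B = B + B / 20 + 1 := rfl
    have h1 := H P n hSQ B (by omega) (by omega)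
    have h2 := glue P hp0pos.le hc.le (r := B) (by omega) (hSQ _ (by omega) (by omega)) h1 320
      (T := 4 * m) (by omega) (by push_cast; omega)
    exact h2.trans (P.L_mono geo (by omega) le_rfl (by omega))
  exact ⟨(min_le_left _ _).trans key, fun p q => (min_le_right _ _).trans (P.Ann_ge p q hapos.le key)⟩

end Vale.Agent.P159.TM.H9
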