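import Vale.Agent.P145.FB.Geo
import Vale.Agent.P145.FB.Tassion

/-!
# RSW from easy crossings, preliminaries (abstract percolation `PP` of P145/FB)

Connection events `CE R Q`, their symmetries, gaps `bx u v r`, the deterministic lemmas `hit` and
`windows`.
-/

namespace Vale.Agent.P159.TM.H9

open Vale.Agent.P145.FB Vale.Agent.P153 Vale.Agent.P153.Topo

/-- Connection event: two points of `R` in the relation `Q` are joined in `S ∩ R`. -/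
def CE (R : Set (ℤ × ℤ)) (Q : ℤ × ℤ → ℤ × ℤ → Prop) (S : Set (ℤ × ℤ)) : Prop :=
  ∃ x y, NC (S ∩ R) x y ∧ Q x y

/-- `R` is bounded. -/
def Bd (R : Set (ℤ × ℤ)) : Prop := ∃ N : ℤ, ∀ z ∈ R, |z.1| ≤ N ∧ |z.2| ≤ N

theorem Bd.rc (a b c d : ℤ) : Bd (rc a b c d) := ⟨_, rc_bdd a b c d⟩

theorem Bd.sub {R R' : Set (ℤ × ℤ)} (h : Bd R) (hs : R' ⊆ R) : Bd R' := by
  obtain ⟨N, hN⟩ := h
  exact ⟨N, fun z hz => hN z (hs hz)⟩

theorem IL_CE {R : Set (ℤ × ℤ)} (h : Bd R) (Q : ℤ × ℤ → ℤ × ℤ → Prop) : IL (CE R Q) := by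
  obtain ⟨N, hN⟩ := h
  exact IL_ex N hN Q

section sym

variable (P : PP) {R R' : Set (ℤ × ℤ)} {Q Q' : ℤ × ℤ → ℤ × ℤ → Prop}

theorem p_sh (hB : Bd R) (p q : ℤ) (hR : ∀ x y : ℤ, (x, y) ∈ R ↔ (x + 2 * p, y + 2 * q) ∈ R')
    (hQ : ∀ x y z w : ℤ, Q (x, y) (z, w) ↔
      Q' (x + 2 * p, y + 2 * q) (z + 2 * p, w + 2 * q)) :
    P.p (CE R' Q') = P.p (CE R Q) := by
  rw [← P.shift p q _ (IL_CE hB Q)]
  congr 1
  funext S
  refine propext (ex_iff (T := fun z => (z.1 + 2 * p, z.2 + 2 * q))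
    (T' := fun z => (z.1 + 2 * (-p), z.2 + 2 * (-q))) ?_ (nn_shift p q) (nn_shift (-p) (-q))
    ?_ ?_ S).symm
  · rintro ⟨x, y⟩; ext <;> dsimp only <;> ring
  · rintro ⟨x, y⟩; exact hR x y
  · rintro ⟨x, y⟩ ⟨z, w⟩; exact hQ x y z w

theorem p_ry (hB : Bd R) (hR : ∀ x y : ℤ, (x, y) ∈ R ↔ (x, -y) ∈ R')
    (hQ : ∀ x y z w : ℤ, Q (x, y) (z, w) ↔ Q' (x, -y) (z, -w)) :
    P.p (CE R' Q') = P.p (CE R Q) := by
  rw [← P.refly _ (IL_CE hB Q)]
  congr 1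
  funext S
  refine propext (ex_iff (T := fun z => (z.1, -z.2)) (T' := fun z => (z.1, -z.2)) ?_ nn_refly
    nn_refly ?_ ?_ S).symm
  · rintro ⟨x, y⟩; ext <;> dsimp only <;> ring
  · rintro ⟨x, y⟩; exact hR x y
  · rintro ⟨x, y⟩ ⟨z, w⟩; exact hQ x y z w

theorem p_sw (hB : Bd R) (hR : ∀ x y : ℤ, (x, y) ∈ R ↔ (y, x) ∈ R')
    (hQ : ∀ x y z w : ℤ, Q (x, y) (z, w) ↔ Q' (y, x) (w, z)) :
    P.p (CE R' Q') = P.p (CE R Q) := by
  rw [← P.swap _ (IL_CE hB Q)]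
  congr 1
  funext S
  refine propext (ex_iff (T := fun z => (z.2, z.1)) (T' := fun z => (z.2, z.1)) ?_ nn_swap
    nn_swap ?_ ?_ S).symm
  · rintro ⟨x, y⟩; rfl
  · rintro ⟨x, y⟩; exact hR x y
  · rintro ⟨x, y⟩ ⟨z, w⟩; exact hQ x y z w

end sym

/-- The gap with lower left corner `(u, v)` (fine coordinates) and side `2r`. -/
def bx (u v r : ℤ) : Set (ℤ × ℤ) := {z | u ≤ z.1 ∧ z.1 ≤ u + 2 * r ∧ v ≤ z.2 ∧ z.2 ≤ v + 2 * r}

theorem mem_bx {u v r : ℤ} {z : ℤ × ℤ} :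
    z ∈ bx u v r ↔ u ≤ z.1 ∧ z.1 ≤ u + 2 * r ∧ v ≤ z.2 ∧ z.2 ≤ v + 2 * r := Iff.rfl

/-- Horizontal segments. -/
theorem nc_hor {S : Set (ℤ × ℤ)} {a b y : ℤ} (hab : a ≤ b) (h : ∀ x, a ≤ x → x ≤ b → (x, y) ∈ S) :
    NC S (a, y) (b, y) := by
  obtain ⟨n, rfl⟩ : ∃ n : ℕ, b = a + n := ⟨(b - a).toNat, by omega⟩
  induction n with
  | zero => simpa using NC.refl (h a le_rfl (by simp))
  | succ n ih =>
    have h1 := ih (by omega) (fun x h1 h2 => h x h1 (by push_cast; omega))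
    refine h1.tail ?_ (h _ (by push_cast; omega) le_rfl)
    unfold NN; dsimp only; push_cast; omega

/-- Vertical segments. -/
theorem nc_ver {S : Set (ℤ × ℤ)} {a b x : ℤ} (hab : a ≤ b) (h : ∀ y, a ≤ y → y ≤ b → (x, y) ∈ S) :
    NC S (x, a) (x, b) := by
  obtain ⟨n, rfl⟩ : ∃ n : ℕ, b = a + n := ⟨(b - a).toNat, by omega⟩
  induction n with
  | zero => simpa using NC.refl (h a le_rfl (by simp))
  | succ n ih =>
    have h1 := ih (by omega) (fun x h1 h2 => h x h1 (by push_cast; omega))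
    refine h1.tail ?_ (h _ (by push_cast; omega) le_rfl)
    unfold NN; dsimp only; push_cast; omega

/-- Rectangles are connected. -/
theorem nc_rect {a b c d : ℤ} {x y : ℤ × ℤ} (hx : x ∈ Rect a b c d) (hy : y ∈ Rect a b c d) :
    NC (Rect a b c d) x y := by
  obtain ⟨x1, x2⟩ := x
  obtain ⟨y1, y2⟩ := y
  obtain ⟨h1, h2, h3, h4⟩ := hx
  obtain ⟨k1, k2, k3, k4⟩ := hy
  dsimp only at h1 h2 h3 h4 k1 k2 k3 k4
  have s1 : NC (Rect a b c d) (x1, x2) (y1, x2) := by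
    rcases le_total x1 y1 with h | h
    · exact nc_hor (S := Rect a b c d) h (fun x g1 g2 => ⟨by dsimp only; omega,
        by dsimp only; omega, by dsimp only; omega, by dsimp only; omega⟩)
    · exact (nc_hor (S := Rect a b c d) h (fun x g1 g2 => ⟨by dsimp only; omega,
        by dsimp only; omega, by dsimp only; omega, by dsimp only; omega⟩)).symm
  have s2 : NC (Rect a b c d) (y1, x2) (y1, y2) := by
    rcases le_total x2 y2 with h | h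
    · exact nc_ver (S := Rect a b c d) h (fun x g1 g2 => ⟨by dsimp only; omega,
        by dsimp only; omega, by dsimp only; omega, by dsimp only; omega⟩)
    · exact (nc_ver (S := Rect a b c d) h (fun x g1 g2 => ⟨by dsimp only; omega,
        by dsimp only; omega, by dsimp only; omega, by dsimp only; omega⟩)).symm
  exact s1.trans s2

/-- **A crossing which avoids the gap meets one of the two arms of the gap.** -/
theorem hit {A N' S' : Set (ℤ × ℤ)} {W Y Z u v r : ℤ} {x y xN yN xS yS : ℤ × ℤ}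
    (hA : NC A x y) (hAQ : A ⊆ rc 0 W Y Z) (hx : x.1 = 0) (hy : y.1 = 2 * W)
    (hN : NC N' xN yN) (hS : NC S' xS yS)
    (hNs : ∀ z ∈ N', 0 ≤ z.1 ∧ z.1 ≤ 2 * W) (hSs : ∀ z ∈ S', 0 ≤ z.1 ∧ z.1 ≤ 2 * W)
    (hxN : xN ∈ bx u v r) (hxS : xS ∈ bx u v r) (hyN : 2 * Z ≤ yN.2) (hyS : yS.2 ≤ 2 * Y)
    (hdis : ∀ z ∈ A, z ∉ bx u v r) (hYZ : Y ≤ Z) :
    ∃ z, NC A x z ∧ (NC N' xN z ∨ NC S' xS z) := by
  set M : Set (ℤ × ℤ) := Rect (max u 0) (min (u + 2 * r) (2 * W)) v (v + 2 * r) with hM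
  have hMb : ∀ z ∈ M, z ∈ bx u v r ∧ 0 ≤ z.1 ∧ z.1 ≤ 2 * W := by
    rintro z ⟨h1, h2, h3, h4⟩
    rw [mem_bx]
    omega
  have hbM : ∀ z, z ∈ bx u v r → 0 ≤ z.1 → z.1 ≤ 2 * W → z ∈ M := by
    rintro z hz h1 h2
    rw [mem_bx] at hz
    exact ⟨by omega, by omega, by omega, by omega⟩
  set T : Set (ℤ × ℤ) := {q | NC N' xN q ∨ q ∈ M ∨ NC S' xS q} with hT
  have e1 : NC T yS xS := (hS.cluster.mono (T := T) (fun q hq => Or.inr (Or.inr hq))).symm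
  have e2 : NC T xS xN := (nc_rect (hbM xS hxS (hSs _ hS.left_mem).1 (hSs _ hS.left_mem).2)
    (hbM xN hxN (hNs _ hN.left_mem).1 (hNs _ hN.left_mem).2)).mono (fun q hq => Or.inr (Or.inl hq))
  have e3 : NC T xN yN := hN.cluster.mono (fun q hq => Or.inl hq)
  have e4 : NC T yS yN := (e1.trans e2).trans e3
  obtain ⟨z, w, hz, hw, hzw, _, _⟩ := e4.exit (f := Prod.snd) nn_snd (c := 2 * Y) (d := 2 * Z)
    (by omega) hyS hyN
  have hTs : ∀ q ∈ T, 0 ≤ q.1 ∧ q.1 ≤ 2 * W := by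
    rintro q (hq | hq | hq)
    · exact hNs q hq.right_mem
    · exact (hMb q hq).2
    · exact hSs q hq.right_mem
  obtain ⟨p, hp1, hp2⟩ := ncross (S := A) (T := T ∩ {u | 2 * Y ≤ u.2 ∧ u.2 ≤ 2 * Z})
    (a := 0) (b := 2 * W) (c := 2 * Y) (d := 2 * Z)
    (by
      intro q hq
      have := hAQ hq
      rw [mem_rc] at this
      exact ⟨by omega, by omega, by omega, by omega⟩)
    (by
      rintro q ⟨hq, hq1, hq2⟩
      have := hTs q hq
      exact ⟨this.1, this.2, hq1, hq2⟩)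
    hA hx hy hzw hz hw
  refine ⟨p, hp1, ?_⟩
  rcases hp2.right_mem.1 with h | h | h
  · exact Or.inl h
  · exact absurd (hMb p h).1 (hdis p hp1.right_mem)
  · exact Or.inr h

/-- **Windows.** A path in a strip `0 ≤ y ≤ 2T` either stays in one of the windows
`[m i, m i + H]` or contains points below `m (i + 1)` and above `m i + H`. -/
theorem windows {A : Set (ℤ × ℤ)} {z w : ℤ × ℤ} (h : NC A z w) {T m : ℤ} (H : ℤ)
    (hA : ∀ q ∈ A, 0 ≤ q.2 ∧ q.2 ≤ 2 * T) (N : ℕ) (hN : T < m * (N + 1)) :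
    ∃ i : ℕ, i ≤ N ∧ (NC (A ∩ {q | 2 * (m * i) ≤ q.2 ∧ q.2 ≤ 2 * (m * i + H)}) z w ∨
      ∃ q1 q2, NC A q1 q2 ∧ q1.2 ≤ 2 * (m * i + m) ∧ 2 * (m * i + H) ≤ q2.2) := by
  classical
  have hex : ∃ i : ℕ, ∃ q, NC A z q ∧ q.2 < 2 * (m * i + m) := by
    refine ⟨N, z, NC.refl h.left_mem, ?_⟩
    have := (hA z h.left_mem).2
    have e : m * ((N : ℤ) + 1) = m * N + m := by ring
    rw [e] at hN
    omega
  set i := Nat.find hex with hi
  have hiN : i ≤ N := Nat.find_min' hex (by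
    refine ⟨z, NC.refl h.left_mem, ?_⟩
    have := (hA z h.left_mem).2
    have e : m * ((N : ℤ) + 1) = m * N + m := by ring
    rw [e] at hN
    omega)
  obtain ⟨q1, hq1, hq1'⟩ := Nat.find_spec hex
  rw [← hi] at hq1'
  have hlow : ∀ q, NC A z q → 2 * (m * i) ≤ q.2 := by
    intro q hq
    rcases Nat.eq_zero_or_pos i with h0 | h0
    · rw [h0]; simpa using (hA q hq.right_mem).1
    · by_contra hcon
      obtain ⟨j, hj⟩ : ∃ j : ℕ, i = j + 1 := ⟨i - 1, by omega⟩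
      refine Nat.find_min hex (m := j) (by omega) ⟨q, hq, ?_⟩
      rw [hj] at hcon
      push_cast at hcon
      have e : m * ((j : ℤ) + 1) = m * j + m := by ring
      rw [e] at hcon
      omega
  refine ⟨i, hiN, ?_⟩
  by_cases hup : ∃ q2, NC A z q2 ∧ 2 * (m * i + H) < q2.2
  · obtain ⟨q2, hq2, hq2'⟩ := hup
    exact Or.inr ⟨q1, q2, hq1.symm.trans hq2, hq1'.le, hq2'.le⟩
  · left
    refine h.cluster.mono ?_
    intro q hq
    refine ⟨hq.right_mem, hlow q hq, ?_⟩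
    by_contra hcon
    exact hup ⟨q, hq, not_le.1 hcon⟩

/-- A path which goes up from `2c` to `2d` crosses. -/
theorem bt_of {A S : Set (ℤ × ℤ)} {a b c d : ℤ} {x y : ℤ × ℤ} (h : NC A x y) (hS : A ⊆ S)
    (hA : ∀ q ∈ A, 2 * a ≤ q.1 ∧ q.1 ≤ 2 * b) (hcd : c ≤ d) (hx : x.2 ≤ 2 * c)
    (hy : 2 * d ≤ y.2) : BTc a b c d S := by
  obtain ⟨z, w, hz, hw, hzw, _, _⟩ := h.exit (f := Prod.snd) nn_snd (c := 2 * c) (d := 2 * d)
    (by omega) hx hy
  refine ⟨z, w, hzw.mono ?_, hz, hw⟩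
  rintro q ⟨hq, hq1, hq2⟩
  refine ⟨hS hq, ?_⟩
  rw [mem_rc]
  exact ⟨(hA q hq).1, (hA q hq).2, hq1, hq2⟩

theorem bt_of' {A S : Set (ℤ × ℤ)} {a b c d : ℤ} {x y : ℤ × ℤ} (h : NC A x y) (hS : A ⊆ S)
    (hA : ∀ q ∈ A, 2 * a ≤ q.1 ∧ q.1 ≤ 2 * b) (hcd : c ≤ d) (hy : y.2 ≤ 2 * c)
    (hx : 2 * d ≤ x.2) : BTc a b c d S :=
  bt_of h.symm hS hA hcd hy hx

/-- Union bound. -/
theorem union_le (P : PP) {N : ℕ} {E : ℕ → Set (ℤ × ℤ) → Prop} {e : ℝ} (h : ∀ i ≤ N, P.p (E i) ≤ e) :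
    P.p (fun S => ∃ i ≤ N, E i S) ≤ (N + 1) * e := by
  induction N with
  | zero =>
    have h1 := P.mono (fun S => ∃ i ≤ 0, E i S) (E 0) (fun S ⟨i, hi, hS⟩ => by
      have : i = 0 := by omega
      rwa [this] at hS)
    have h2 := h 0 le_rfl
    push_cast
    linarith
  | succ N ih =>
    have h1 := P.mono (fun S => ∃ i ≤ N + 1, E i S) (fun S => (∃ i ≤ N, E i S) ∨ E (N + 1) S)
      (fun S ⟨i, hi, hS⟩ => by
        rcases Nat.lt_or_ge i (N + 1) with h | h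
        · exact Or.inl ⟨i, by omega, hS⟩
        · have : i = N + 1 := by omega
          rw [this] at hS
          exact Or.inr hS)
    have h2 := P.or_le (fun S => ∃ i ≤ N, E i S) (E (N + 1))
    have h3 := ih (fun i hi => h i (by omega))
    have h4 := h (N + 1) le_rfl
    push_cast
    linarith

end Vale.Agent.P159.TM.H9
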