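import Vale.Agent.P159.TM.H9.Pre

/-!
# Crossings in the long direction from crossings in the easy direction

For a positively associated, symmetric percolation (`PP` of P145/FB), crossings of `t × (t + t/20 + 1)`
over the distance `t` with probability `≥ p₀` at all scales `t ≤ n` give crossings in the long
direction at all scales `≤ n / 2`. No independence is used.
-/

namespace Vale.Agent.P159.TM.H9

open Vale.Agent.P145.FB Vale.Agent.P153 Vale.Agent.P153.Topo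

/-- The room of a crossing over the distance `t`. -/
def w (t : ℤ) : ℤ := t + t / 20 + 1

/-- The long distance. -/
def l (t : ℤ) : ℤ := t + t / 5 + 1

/-- The gap is joined to the top of the rectangle. -/
def Up (W c d u v r : ℤ) : Set (ℤ × ℤ) → Prop :=
  CE (rc 0 W c d) (fun x y => x ∈ bx u v r ∧ y.2 = 2 * d)

/-- The gap is joined to the bottom of the rectangle. -/
def Dn (W c d u v r : ℤ) : Set (ℤ × ℤ) → Prop :=
  CE (rc 0 W c d) (fun x y => x ∈ bx u v r ∧ y.2 = 2 * c)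

/-- The gap is joined to the left side of the rectangle. -/
def Lt (B W : ℤ) (G : Set (ℤ × ℤ)) : Set (ℤ × ℤ) → Prop :=
  CE (rc 0 B 0 W) (fun x y => x ∈ G ∧ y.1 = 0)

/-- A left-right crossing which avoids `G`. -/
def Er (X X' c d : ℤ) (G : Set (ℤ × ℤ)) : Set (ℤ × ℤ) → Prop :=
  CE (rc X X' c d \ G) (fun x y => x.1 = 2 * X ∧ y.1 = 2 * X')

section prob

variable (P : PP)

theorem p_Up_sh (W c d u v r q : ℤ) :
    P.p (Up W (c + q) (d + q) u (v + 2 * q) r) = P.p (Up W c d u v r) := by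
  refine p_sh P (Bd.rc _ _ _ _) 0 q ?_ ?_
  · intro x y; simp only [mem_rc]; omega
  · intro x y z w; simp only [mem_bx]; omega

theorem p_Dn (W c d u v r : ℤ) :
    P.p (Dn W (v + r - d) (v + r - c) u v r) = P.p (Up W c d u v r) := by
  have h1 : P.p (CE (rc 0 W (-d) (-c)) (fun x y => x ∈ bx u (-v - 2 * r) r ∧ y.2 = 2 * (-d))) =
      P.p (Up W c d u v r) := by
    refine p_ry P (Bd.rc _ _ _ _) ?_ ?_
    · intro x y; simp only [mem_rc]; omega
    · intro x y z w; simp only [mem_bx]; omega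
  rw [← h1]
  refine p_sh P (Bd.rc _ _ _ _) 0 (v + r) ?_ ?_
  · intro x y; simp only [mem_rc]; omega
  · intro x y z w; simp only [mem_bx]; omega

theorem p_Lt (B W a b r : ℤ) :
    P.p (Up W 0 B b (2 * B - a - 2 * r) r) = P.p (Lt B W (bx a b r)) := by
  have h1 : P.p (CE (rc 0 W 0 B) (fun x y => x ∈ bx b a r ∧ y.2 = 0)) =
      P.p (Lt B W (bx a b r)) := by
    refine p_sw P (Bd.rc _ _ _ _) ?_ ?_
    · intro x y; simp only [mem_rc]; omega
    · intro x y z w; simp only [mem_bx]; omega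
  have h2 : P.p (CE (rc 0 W (-B) 0) (fun x y => x ∈ bx b (-a - 2 * r) r ∧ y.2 = 0)) =
      P.p (CE (rc 0 W 0 B) (fun x y => x ∈ bx b a r ∧ y.2 = 0)) := by
    refine p_ry P (Bd.rc _ _ _ _) ?_ ?_
    · intro x y; simp only [mem_rc]; omega
    · intro x y z w; simp only [mem_bx]; omega
  rw [← h1, ← h2]
  refine p_sh P (Bd.rc _ _ _ _) 0 B ?_ ?_
  · intro x y; simp only [mem_rc]; omega
  · intro x y z w; simp only [mem_bx]; omega

theorem p_Er (X X' c d u v v' r p q : ℤ) :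
    P.p (Er (X + p) (X' + p) (c + q) (d + q)
      (bx (u + 2 * p) (v + 2 * q) r ∪ bx (u + 2 * p) (v' + 2 * q) r)) =
      P.p (Er X X' c d (bx u v r ∪ bx u v' r)) := by
  refine p_sh P ((Bd.rc X X' c d).sub Set.sdiff_subset) p q ?_ ?_
  · intro x y
    simp only [Set.mem_sdiff, Set.mem_union, mem_rc, mem_bx]
    omega
  · intro x y z w; dsimp only; omega

end prob

/-- **(L1)** Crossings avoiding a gap and its translate are rare. -/
theorem L1 (P : PP) {c' : ℝ} (hc : 0 ≤ c') {B W ℓ D r u v : ℤ} (hr : 0 ≤ r) (hD : 0 ≤ D)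
    (hℓ : 0 ≤ ℓ) (h1 : v + 2 * r ≤ 2 * (B + D - ℓ)) (h2 : 2 * (v + r - B + ℓ) ≤ v + 2 * D)
    (h3 : v + r - B + D + ℓ ≤ B) (h4 : v + r - B + ℓ ≤ B + D)
    (hup : c' ≤ P.p (Up W 0 B u v r)) :
    P.p (Er 0 W (v + r - B + D) B (bx u v r ∪ bx u (v + 2 * D) r)) * c' ^ 4 ≤ 4 * P.L ℓ W := by
  have a2 : c' ≤ P.p (Dn W (v + r - B) (v + r - 0) u v r) := by rw [p_Dn]; exact hup
  have a3 : c' ≤ P.p (Up W (0 + D) (B + D) u (v + 2 * D) r) := by rw [p_Up_sh]; exact hup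
  have a4 : c' ≤ P.p (Dn W (v + 2 * D + r - (B + D)) (v + 2 * D + r - (0 + D)) u (v + 2 * D) r) := by
    rw [p_Dn]; exact a3
  have iU : ∀ a b c d e f : ℤ, IL (Up a b c d e f) := fun a b c d e f => IL_CE (Bd.rc _ _ _ _) _
  have iD : ∀ a b c d e f : ℤ, IL (Dn a b c d e f) := fun a b c d e f => IL_CE (Bd.rc _ _ _ _) _
  have iE : IL (Er 0 W (v + r - B + D) B (bx u v r ∪ bx u (v + 2 * D) r)) :=
    IL_CE ((Bd.rc _ _ _ _).sub Set.sdiff_subset) _
  have b1 := P.fkg2 (T := fun S => Up W 0 B u v r S ∧ Dn W (v + r - B) (v + r - 0) u v r S)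
    (iU _ _ _ _ _ _) (iD _ _ _ _ _ _) (fun S x y => ⟨x, y⟩) hc hc hup a2
  have b2 := P.fkg2 (T := fun S => Up W (0 + D) (B + D) u (v + 2 * D) r S ∧
      Dn W (v + 2 * D + r - (B + D)) (v + 2 * D + r - (0 + D)) u (v + 2 * D) r S)
    (iU _ _ _ _ _ _) (iD _ _ _ _ _ _) (fun S x y => ⟨x, y⟩) hc hc a3 a4
  have b3 := P.fkg2 (T := fun S => (Up W 0 B u v r S ∧ Dn W (v + r - B) (v + r - 0) u v r S) ∧
      (Up W (0 + D) (B + D) u (v + 2 * D) r S ∧
        Dn W (v + 2 * D + r - (B + D)) (v + 2 * D + r - (0 + D)) u (v + 2 * D) r S))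
    ((iU _ _ _ _ _ _).and (iD _ _ _ _ _ _)) ((iU _ _ _ _ _ _).and (iD _ _ _ _ _ _))
    (fun S x y => ⟨x, y⟩) (mul_nonneg hc hc) (mul_nonneg hc hc) b1 b2
  have key := P.fkg2 (T := fun S => BTc 0 W (B + D - ℓ) (B + D) S ∨
      (BTc 0 W (v + r - B) (v + r - B + ℓ) S ∨ BTc 0 W (v + r - B + D) (v + r - B + D + ℓ) S))
    iE (((iU _ _ _ _ _ _).and (iD _ _ _ _ _ _)).and ((iU _ _ _ _ _ _).and (iD _ _ _ _ _ _)))
    (a := P.p (Er 0 W (v + r - B + D) B (bx u v r ∪ bx u (v + 2 * D) r)))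
    (b := c' * c' * (c' * c')) ?_ (P.nonneg _) (by positivity) le_rfl b3
  · have t1 := P.or_le (BTc 0 W (B + D - ℓ) (B + D))
      (fun S => BTc 0 W (v + r - B) (v + r - B + ℓ) S ∨
        BTc 0 W (v + r - B + D) (v + r - B + D + ℓ) S)
    have t2 := P.or_le (BTc 0 W (v + r - B) (v + r - B + ℓ))
      (BTc 0 W (v + r - B + D) (v + r - B + D + ℓ))
    have e1 : P.p (BTc 0 W (B + D - ℓ) (B + D)) = P.L ℓ W := by
      rw [P.B_eq']; congr 1 <;> ring
    have e2 : P.p (BTc 0 W (v + r - B) (v + r - B + ℓ)) = P.L ℓ W := by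
      rw [P.B_eq']; congr 1 <;> ring
    have e3 : P.p (BTc 0 W (v + r - B + D) (v + r - B + D + ℓ)) = P.L ℓ W := by
      rw [P.B_eq']; congr 1 <;> ring
    rw [e1] at t1
    rw [e2, e3] at t2
    have h5 := P.L_nonneg ℓ W
    calc P.p (Er 0 W (v + r - B + D) B (bx u v r ∪ bx u (v + 2 * D) r)) * c' ^ 4
        = P.p (Er 0 W (v + r - B + D) B (bx u v r ∪ bx u (v + 2 * D) r)) *
          (c' * c' * (c' * c')) := by ring
      _ ≤ _ := key
      _ ≤ 4 * P.L ℓ W := by linarith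
  · rintro S ⟨x, y, hxy, hx, hy⟩ ⟨⟨⟨xN, yN, hN, hxN, hyN⟩, ⟨xS, yS, hS, hxS, hyS⟩⟩,
      ⟨⟨xN', yN', hN', hxN', hyN'⟩, ⟨xS', yS', hS', hxS', hyS'⟩⟩⟩
    have hst : ∀ a b : ℤ, ∀ z ∈ S ∩ rc 0 W a b, 0 ≤ z.1 ∧ z.1 ≤ 2 * W := by
      intro a b z hz
      have := hz.2
      rw [mem_rc] at this
      omega
    obtain ⟨z, hz1, hz2⟩ := hit (Y := v + r - B + D) (Z := B) (W := W) hxy
      (Set.inter_subset_right.trans Set.sdiff_subset) (by omega) hy hN hS (hst _ _) (hst _ _)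
      hxN hxS (by omega) (by omega) (fun q hq hq' => hq.2.2 (Or.inl hq')) (by omega)
    obtain ⟨z', hz1', hz2'⟩ := hit (Y := v + r - B + D) (Z := B) (W := W) hxy
      (Set.inter_subset_right.trans Set.sdiff_subset) (by omega) hy hN' hS' (hst _ _) (hst _ _)
      hxN' hxS' (by omega) (by omega) (fun q hq hq' => hq.2.2 (Or.inr hq')) (by omega)
    set M : Set (ℤ × ℤ) := S ∩ {q | 0 ≤ q.1 ∧ q.1 ≤ 2 * W} with hM
    have hMs : ∀ q ∈ M, 2 * 0 ≤ q.1 ∧ q.1 ≤ 2 * W := fun q hq => ⟨by have := hq.2.1; omega, hq.2.2⟩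
    have sub : ∀ a b : ℤ, S ∩ rc 0 W a b ⊆ M := fun a b q hq => ⟨hq.1, hst a b q hq⟩
    have subE : S ∩ (rc 0 W (v + r - B + D) B \ (bx u v r ∪ bx u (v + 2 * D) r)) ⊆ M :=
      fun q hq => sub _ _ ⟨hq.1, hq.2.1⟩
    have hzz : NC M z z' := (hz1.symm.trans hz1').mono subE
    rw [mem_bx] at hxN hxS hxN' hxS'
    rcases hz2 with g | g <;> rcases hz2' with g' | g'
    · -- N N'
      left
      exact bt_of (((g.mono (sub _ _)).trans hzz).trans
        ((g'.mono (sub _ _)).symm.trans (hN'.mono (sub _ _)))) Set.inter_subset_left hMs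
        (by omega) (by omega) (by omega)
    · -- N S'
      right; right
      exact bt_of' ((((hN.mono (sub _ _)).symm.trans (g.mono (sub _ _))).trans hzz).trans
        ((g'.mono (sub _ _)).symm.trans (hS'.mono (sub _ _)))) Set.inter_subset_left hMs
        (by omega) (by omega) (by omega)
    · -- S N'
      right; left
      exact bt_of ((((hS.mono (sub _ _)).symm.trans (g.mono (sub _ _))).trans hzz).trans
        ((g'.mono (sub _ _)).symm.trans (hN'.mono (sub _ _)))) Set.inter_subset_left hMs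
        (by omega) (by omega) (by omega)
    · -- S S'
      right; left
      exact bt_of ((((hS.mono (sub _ _)).symm.trans (g.mono (sub _ _))).trans hzz).trans
        (g'.mono (sub _ _)).symm) Set.inter_subset_left hMs (by omega) (by omega) (by omega)

/-- **(L2), deterministic part.** -/
theorem L2det {S : Set (ℤ × ℤ)} {B W X m H ℓ : ℤ} (hX : 0 ≤ X) (hXB : X ≤ B) (hℓ : 0 ≤ ℓ)
    (hH : m + ℓ ≤ H) (N : ℕ) (hN : W < m * (N + 1)) (G1 G2 : ℕ → Set (ℤ × ℤ))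
    (h : LRc 0 B 0 W S) :
    ∃ i ≤ N, (BTc X B (m * i + m) (m * i + m + ℓ) S ∨ Er X B (m * i) (m * i + H) (G1 i ∪ G2 i) S) ∨
      (Lt B W (G1 i) S ∨ Lt B W (G2 i) S) := by
  obtain ⟨x, y, hxy, hx, hy⟩ := h
  obtain ⟨z, z', hz, hz', hzz, hxz, _⟩ := hxy.exit (f := Prod.fst) nn_fst (c := 2 * X)
    (d := 2 * B) (by omega) (by omega) (by omega)
  obtain ⟨i, hi, hcase⟩ := windows hzz (T := W) (m := m) H (by
    rintro q ⟨⟨_, hq⟩, _⟩
    rw [mem_rc] at hq
    omega) N hN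
  refine ⟨i, hi, ?_⟩
  rcases hcase with hcase | ⟨q1, q2, hq, hq1, hq2⟩
  · set A := S ∩ rc 0 B 0 W ∩ {u | 2 * X ≤ u.1 ∧ u.1 ≤ 2 * B} ∩
      {q | 2 * (m * i) ≤ q.2 ∧ q.2 ≤ 2 * (m * i + H)} with hA
    have hA1 : A ⊆ S ∩ rc 0 B 0 W := fun q hq => hq.1.1
    by_cases hG : ∃ q, NC A z q ∧ (q ∈ G1 i ∨ q ∈ G2 i)
    · obtain ⟨q, hzq, hq | hq⟩ := hG
      · exact Or.inr (Or.inl ⟨q, x, (hxz.trans (hzq.mono hA1)).symm, hq, by omega⟩)
      · exact Or.inr (Or.inr ⟨q, x, (hxz.trans (hzq.mono hA1)).symm, hq, by omega⟩)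
    · refine Or.inl (Or.inr ⟨z, z', hcase.cluster.mono ?_, by omega, by omega⟩)
      intro q hq
      have hqA := hq.right_mem
      refine ⟨hqA.1.1.1, ?_, ?_⟩
      · have h1 := hqA.1.2
        have h2 := hqA.2
        simp only [Set.mem_ofPred_eq] at h1 h2
        rw [mem_rc]
        omega
      · rintro (h1 | h1)
        · exact hG ⟨q, hq, Or.inl h1⟩
        · exact hG ⟨q, hq, Or.inr h1⟩
  · refine Or.inl (Or.inl (bt_of hq (fun q hq => hq.1.1) (fun q hq => hq.2) (by omega) (by omega)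
      (by omega)))

/-- **Arms landing on a gap.** -/
def ARM (P : PP) (c' : ℝ) (B r : ℤ) : Prop :=
  ∃ u v : ℤ, -(2 * r) ≤ u ∧ u ≤ 2 * w B ∧ -(2 * r) ≤ v ∧ 6 * v ≤ B ∧
    c' ≤ P.p (Up (w B) 0 B u v r)

/-- **(L2)** -/
theorem L2 (P : PP) {p0 : ℝ} (hp0 : 0 < p0) (hp1 : p0 ≤ 1) {B s r : ℤ} (hr : 0 ≤ r)
    (hs : s = B / 14) (hrs : 200 * (r + 1) ≤ s) (hSQ : p0 ≤ P.L B (w B))
    (he : P.L (l s) (w s) ≤ (p0 / 6000) ^ 6) (hA : ARM P (p0 / 6000) s r) :
    ARM P (p0 / 6000) B r := by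
  obtain ⟨u, v, hu1, hu2, hv1, hv2, hup⟩ := hA
  set c' : ℝ := p0 / 6000 with hc'
  have hc0 : 0 < c' := by positivity
  have hc1 : c' ≤ 1 / 6000 := by rw [hc']; linarith
  have hws : w s = s + s / 20 + 1 := rfl
  have hwB : w B = B + B / 20 + 1 := rfl
  have hls : l s = s + s / 5 + 1 := rfl
  have herr := L1 P hc0.le (B := s) (W := w s) (ℓ := l s) (D := s / 2) (r := r) (u := u) (v := v)
    hr (by omega) (by omega) (by omega) (by omega) (by omega) (by omega) hup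
  set Y : ℤ := v + r - s + s / 2 with hY
  have hc4 : 0 < c' ^ 4 := by positivity
  have herr2 : P.p (Er 0 (w s) Y s (bx u v r ∪ bx u (v + 2 * (s / 2)) r)) ≤ 4 * c' ^ 2 := by
    have h1 : P.p (Er 0 (w s) Y s (bx u v r ∪ bx u (v + 2 * (s / 2)) r)) * c' ^ 4 ≤
        4 * c' ^ 2 * c' ^ 4 := by
      calc _ ≤ 4 * P.L (l s) (w s) := herr
        _ ≤ 4 * c' ^ 6 := by linarith
        _ = _ := by ring
    exact le_of_mul_le_mul_right h1 hc4
  by_contra hcon
  have hno : ∀ a b : ℤ, -(2 * r) ≤ a → a ≤ 2 * w B → -(2 * r) ≤ b → 6 * b ≤ B →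
      P.p (Up (w B) 0 B a b r) ≤ c' := by
    intro a b h1 h2 h3 h4
    by_contra hcc
    exact hcon ⟨a, b, h1, h2, h3, h4, (not_le.1 hcc).le⟩
  have hc6 : c' ^ 6 ≤ c' := by
    calc c' ^ 6 = c' ^ 5 * c' := by ring
      _ ≤ 1 * c' := by
        refine mul_le_mul_of_nonneg_right (pow_le_one₀ hc0.le (by linarith)) hc0.le
      _ = c' := one_mul _
  have hLt : ∀ b : ℤ, P.p (Lt B (w B) (bx (u + 2 * (B - w s)) b r)) ≤ c' := by
    intro b
    by_cases hb : -(2 * r) ≤ b ∧ b ≤ 2 * w B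
    · rw [← p_Lt]
      exact hno _ _ hb.1 hb.2 (by omega) (by omega)
    · refine le_trans (P.mono _ (LRc 0 (l s) 0 (w s)) ?_) (he.trans hc6)
      rintro S ⟨x, y, hxy, hx, hy⟩
      exfalso
      have h1 := hxy.left_mem.2
      rw [mem_rc] at h1
      rw [mem_bx] at hx
      omega
  set m : ℤ := s / 10 with hm
  have hstep : ∀ i ≤ 159, P.p (fun S =>
      (BTc (B - w s) B (m * (i : ℕ) + m) (m * i + m + l s) S ∨
        Er (B - w s) B (m * i) (m * i + (s - Y))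
          (bx (u + 2 * (B - w s)) (v + 2 * (m * i - Y)) r ∪
            bx (u + 2 * (B - w s)) (v + 2 * (s / 2) + 2 * (m * i - Y)) r) S) ∨
      (Lt B (w B) (bx (u + 2 * (B - w s)) (v + 2 * (m * i - Y)) r) S ∨
        Lt B (w B) (bx (u + 2 * (B - w s)) (v + 2 * (s / 2) + 2 * (m * i - Y)) r) S)) ≤
      c' ^ 6 + 4 * c' ^ 2 + (c' + c') := by
    intro i _
    refine (P.or_le _ _).trans (add_le_add ((P.or_le _ _).trans (add_le_add ?_ ?_))
      ((P.or_le _ _).trans (add_le_add (hLt _) (hLt _))))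
    · rw [P.B_eq']
      have e1 : m * (i : ℤ) + m + l s - (m * i + m) = l s := by ring
      have e2 : B - (B - w s) = w s := by ring
      rw [e1, e2]
      exact he
    · have e := p_Er P 0 (w s) Y s u v (v + 2 * (s / 2)) r (B - w s) (m * i - Y)
      have e1 : (0 : ℤ) + (B - w s) = B - w s := by ring
      have e2 : w s + (B - w s) = B := by ring
      have e3 : Y + (m * (i : ℤ) - Y) = m * i := by ring
      have e4 : s + (m * (i : ℤ) - Y) = m * i + (s - Y) := by ring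
      rw [e1, e2, e3, e4] at e
      rw [e]
      exact herr2
  have hun := union_le P hstep
  have hdet : P.L B (w B) ≤ _ := P.mono (LRc 0 B 0 (w B)) _ (fun S hS =>
    L2det (S := S) (B := B) (W := w B) (X := B - w s) (m := m) (H := s - Y) (ℓ := l s)
      (by omega) (by omega) (by omega) (by omega) 159 (by push_cast; omega)
      (fun i => bx (u + 2 * (B - w s)) (v + 2 * (m * i - Y)) r)
      (fun i => bx (u + 2 * (B - w s)) (v + 2 * (s / 2) + 2 * (m * i - Y)) r) hS)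
  have hfin := hSQ.trans (hdet.trans hun)
  have hp : p0 = 6000 * c' := by rw [hc']; ring
  have hc2 : c' ^ 2 ≤ c' * (1 / 6000) := by
    calc c' ^ 2 = c' * c' := by ring
      _ ≤ c' * (1 / 6000) := mul_le_mul_of_nonneg_left hc1 hc0.le
  push_cast at hfin
  linarith

/-- **(L3)** -/
theorem L3 (P : PP) {p0 : ℝ} (hp0 : 0 < p0) {B r : ℤ} (hB : 1 ≤ B) (hr : 0 ≤ r)
    (hBr : B < 2814 * (r + 1)) (hSQ : p0 ≤ P.L B (w B)) : ARM P (p0 / 6000) B r := by
  by_contra hcon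
  have hwB : w B = B + B / 20 + 1 := rfl
  have hno : ∀ a b : ℤ, -(2 * r) ≤ a → a ≤ 2 * w B → -(2 * r) ≤ b → 6 * b ≤ B →
      P.p (Up (w B) 0 B a b r) ≤ p0 / 6000 := by
    intro a b h1 h2 h3 h4
    by_contra hcc
    exact hcon ⟨a, b, h1, h2, h3, h4, (not_le.1 hcc).le⟩
  have hk : 0 < 2 * r + 1 := by omega
  set N : ℕ := (2 * w B / (2 * r + 1)).toNat with hN
  have hNn : 0 ≤ 2 * w B / (2 * r + 1) := Int.ediv_nonneg (by omega) hk.le
  have hN' : (N : ℤ) = 2 * w B / (2 * r + 1) := Int.toNat_of_nonneg hNn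
  have hNk : (N : ℤ) * (2 * r + 1) ≤ 2 * w B := by
    rw [hN']; exact Int.ediv_mul_le _ hk.ne'
  have hN1 : (N : ℤ) < 5998 := by
    rw [hN']; exact Int.ediv_lt_of_lt_mul hk (by omega)
  have hun := union_le P (N := N) (E := fun i => Up (w B) 0 B (i * (2 * r + 1)) 0 r)
    (e := p0 / 6000) (by
      intro i hi
      have h1 : (i : ℤ) * (2 * r + 1) ≤ N * (2 * r + 1) :=
        mul_le_mul_of_nonneg_right (by exact_mod_cast hi) hk.le
      have h2 : 0 ≤ (i : ℤ) * (2 * r + 1) := mul_nonneg (by positivity) hk.le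
      exact hno _ _ (by omega) (by omega) (by omega) (by omega))
  have e1 : P.L B (w B) = P.p (BTc 0 (w B) 0 B) := by rw [P.B_eq']; congr 1 <;> ring
  have hdet : P.L B (w B) ≤ P.p (fun S => ∃ i ≤ N, Up (w B) 0 B (i * (2 * r + 1)) 0 r S) := by
    rw [e1]
    refine P.mono _ _ ?_
    rintro S ⟨x, y, hxy, hx, hy⟩
    have h1 := hxy.left_mem.2
    rw [mem_rc] at h1
    have hq0 : 0 ≤ x.1 / (2 * r + 1) := Int.ediv_nonneg (by omega) hk.le
    refine ⟨(x.1 / (2 * r + 1)).toNat, ?_, x, y, hxy, ?_, hy⟩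
    · rw [hN]
      exact Int.toNat_le_toNat (Int.ediv_le_ediv hk (by omega))
    · rw [Int.toNat_of_nonneg hq0, mem_bx]
      have h2 := Int.ediv_mul_le x.1 hk.ne'
      have h3 := Int.lt_ediv_add_one_mul_self x.1 hk
      have h4 : (x.1 / (2 * r + 1) + 1) * (2 * r + 1) =
          x.1 / (2 * r + 1) * (2 * r + 1) + (2 * r + 1) := by ring
      rw [h4] at h3
      omega
  have hfin := hSQ.trans (hdet.trans hun)
  have h5 : ((N : ℝ) + 1) ≤ 5998 := by
    have : (N : ℤ) + 1 ≤ 5998 := by omega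
    exact_mod_cast this
  have h6 : ((N : ℝ) + 1) * (p0 / 6000) ≤ 5998 * (p0 / 6000) :=
    mul_le_mul_of_nonneg_right h5 (by positivity)
  linarith

end Vale.Agent.P159.TM.H9
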